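import Vale.Agent.P268.T.Blocks1

/-!
# P268, topological half, block B2: sums of ray functions are ray functions

`FS_sigma`: the ray function of a product family is the sum of the ray functions.
`blockSum_of_chain`: block B2 from block B1.
-/

namespace Vale.Agent.P268.T

open Set Filter Topology Vale.Agent.P268.Z

/-- The real part of the ray function of a product family. -/
theorem raySup_sigma {ι : Type} [Fintype ι] {σ κ : ι → Type} [∀ i, Fintype (σ i)]
    [∀ i, Nonempty (σ i)] [∀ i, Fintype (κ i)] [Fintype (∀ i, σ i)] (ε : ℝ)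
    (K : ∀ i, σ i → κ i → ℕ) (x : (Σ i, κ i) → ℂ) :
    raySup ε (fun (a : ∀ i, σ i) (v : Σ i, κ i) => K v.1 (a v.1) v.2) x =
      ∑ i, raySup ε (K i) (fun j => x ⟨i, j⟩) := by
  have hs : ∀ a : ∀ i, σ i, ∑ v : Σ i, κ i, ray ε (K v.1 (a v.1) v.2) (x v) =
      ∑ i, ∑ j, ray ε (K i (a i) j) (x ⟨i, j⟩) := fun a =>
    Fintype.sum_sigma fun v : Σ i, κ i => ray ε (K v.1 (a v.1) v.2) (x v)
  refine le_antisymm ?_ ?_
  · refine Finset.sup'_le _ _ fun a _ => ?_
    rw [hs a]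
    exact Finset.sum_le_sum fun i _ => Finset.le_sup'
      (fun b : σ i => ∑ j, ray ε (K i b j) (x ⟨i, j⟩)) (Finset.mem_univ (a i))
  · have h1 : ∀ i, ∃ b : σ i, raySup ε (K i) (fun j => x ⟨i, j⟩) =
        ∑ j, ray ε (K i b j) (x ⟨i, j⟩) := fun i => by
      obtain ⟨b, _, hb⟩ := Finset.exists_mem_eq_sup' (Finset.univ_nonempty (α := σ i))
        (fun b : σ i => ∑ j, ray ε (K i b j) (x ⟨i, j⟩))
      exact ⟨b, hb⟩
    choose a ha using h1
    simp only [ha]
    rw [← hs a]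
    exact Finset.le_sup' (fun a : ∀ i, σ i => ∑ v : Σ i, κ i, ray ε (K v.1 (a v.1) v.2) (x v))
      (Finset.mem_univ a)

theorem turnSum_sigma {ι : Type} [Fintype ι] {κ : ι → Type} [∀ i, Fintype (κ i)]
    (x : (Σ i, κ i) → ℂ) : turnSum x = ∑ i, turnSum (fun j => x ⟨i, j⟩) :=
  Fintype.sum_sigma fun v : Σ i, κ i => turn (x v)

/-- The ray function of a product family is the sum of the ray functions. -/
theorem FS_sigma {ι : Type} [Fintype ι] {σ κ : ι → Type} [∀ i, Fintype (σ i)]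
    [∀ i, Nonempty (σ i)] [∀ i, Fintype (κ i)] [Fintype (∀ i, σ i)] (ε : ℝ)
    (K : ∀ i, σ i → κ i → ℕ) (x : (Σ i, κ i) → ℂ) :
    FS ε (fun (a : ∀ i, σ i) (v : Σ i, κ i) => K v.1 (a v.1) v.2) x =
      ∑ i, FS ε (K i) (fun j => x ⟨i, j⟩) := by
  refine Complex.ext ?_ ?_
  · rw [Complex.re_sum]
    exact raySup_sigma ε K x
  · rw [Complex.im_sum]
    exact turnSum_sigma x

/-- Reindexing of the family. -/
theorem FS_equiv {σ σ' ι : Type} [Fintype σ] [Nonempty σ] [Fintype σ'] [Nonempty σ'] [Fintype ι]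
    (ε : ℝ) (K : σ → ι → ℕ) (e : σ' ≃ σ) : FS ε (fun a => K (e a)) = FS ε K := by
  funext x
  refine Complex.ext ?_ rfl
  show raySup ε (fun a => K (e a)) x = raySup ε K x
  refine le_antisymm ?_ ?_
  · exact Finset.sup'_le _ _ fun a _ => Finset.le_sup'
      (fun b : σ => ∑ j, ray ε (K b j) (x j)) (Finset.mem_univ (e a))
  · refine Finset.sup'_le _ _ fun b _ => ?_
    have h1 := Finset.le_sup' (fun a : σ' => ∑ j, ray ε (K (e a) j) (x j))
      (Finset.mem_univ (e.symm b))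
    simp only [Equiv.apply_symm_apply] at h1
    exact h1

/-- Currying of coordinates. -/
noncomputable def curryCLE {ι : Type} [Fintype ι] (κ : ι → Type) [∀ i, Fintype (κ i)] :
    ((Σ i, κ i) → ℂ) ≃L[ℝ] (∀ i, κ i → ℂ) where
  toFun x := fun i j => x ⟨i, j⟩
  invFun y := fun v => y v.1 v.2
  map_add' _ _ := rfl
  map_smul' _ _ := rfl
  left_inv _ := rfl
  right_inv _ := rfl
  continuous_toFun := continuous_pi fun _ => continuous_pi fun _ => continuous_apply _
  continuous_invFun := continuous_pi fun v => (continuous_apply v.2).comp (continuous_apply v.1)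

/-- Sums of functions equivalent to ray functions are equivalent to the ray function of the
product family. -/
theorem HEqv.sum_FS {ι : Type} [Fintype ι] {E σ κ : ι → Type} [∀ i, NormedAddCommGroup (E i)]
    [∀ i, NormedSpace ℝ (E i)] [∀ i, FiniteDimensional ℝ (E i)] [∀ i, Fintype (σ i)]
    [∀ i, Nonempty (σ i)] [∀ i, Fintype (κ i)] [Fintype (∀ i, σ i)] {ε : ℝ}
    {K : ∀ i, σ i → κ i → ℕ} {F : ∀ i, E i → ℂ} (h : ∀ i, HEqv (F i) (FS ε (K i))) :
    HEqv (fun x : ∀ i, E i => ∑ i, F i (x i))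
      (FS ε fun (a : ∀ i, σ i) (v : Σ i, κ i) => K v.1 (a v.1) v.2) := by
  have h1 : HEqv (fun x : ∀ i, E i => ∑ i, F i (x i))
      (fun x : ∀ i, κ i → ℂ => ∑ i, FS ε (K i) (x i)) := HEqv.sum h
  have h2 : (FS ε fun (a : ∀ i, σ i) (v : Σ i, κ i) => K v.1 (a v.1) v.2) =
      fun x => (fun y : ∀ i, κ i → ℂ => ∑ i, FS ε (K i) (y i)) (curryCLE κ x) := by
    funext x
    exact FS_sigma ε K x
  rw [h2]
  exact h1.trans (HEqv.of_linear (curryCLE κ) h1.right).symm

/-- **Block B2** from block B1. -/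
theorem blockSum_of_chain (h : BlockChain) : BlockSum := by
  intro m F h0 h2 hc _
  have hne : ∀ i, Nonempty (Stair (F i)) := fun i => nonempty_stair (h2 i)
  choose ε hε h' using fun i => h (F i) (h0 i) (h2 i) (hc i)
  obtain ⟨δ, hδ, hδε⟩ : ∃ δ > 0, ∀ i, δ ≤ ε i := by
    rcases isEmpty_or_nonempty (Fin m) with he | he
    · exact ⟨1, one_pos, fun i => he.elim i⟩
    · obtain ⟨i, hi⟩ := Finite.exists_min ε
      exact ⟨ε i, hε i, hi⟩
  refine ⟨δ, hδ, fun η hη => ?_⟩
  have h3 : ∀ i, HEqv (P (F i)) (FS η fun p : Stair (F i) => p.1) := fun i =>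
    h' i η ⟨hη.1, hη.2.trans (hδε i)⟩
  have h4 := HEqv.sum_FS h3
  have h5 := FS_equiv (σ := StairF F) (σ' := ∀ i, Stair (F i)) η (fun p : StairF F => p.1)
    (stairFEquiv F)
  rw [← h5]
  exact h4

end Vale.Agent.P268.T
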